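import Vale.Agent.Lib.P060.Bip

/-! # P060: maximum matchings of the complement -/

namespace Vale.Agent.P060

open Finset

variable {V : Type*} [Fintype V] [DecidableEq V] (H : SimpleGraph V)

/-- disjoint pairs -/
def DD (x y : V × V) : Prop := x.1 ≠ y.1 ∧ x.1 ≠ y.2 ∧ x.2 ≠ y.1 ∧ x.2 ≠ y.2

omit [Fintype V] [DecidableEq V] in
theorem DD_symm (x y : V × V) (h : DD x y) : DD y x :=
  ⟨h.1.symm, h.2.2.1.symm, h.2.1.symm, h.2.2.2.symm⟩

/-- matchings of `H` -/
abbrev Mat (M : Finset (V × V)) : Prop := Fam (fun x : V × V => H.Adj x.1 x.2) DD M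

/-- Structure of a maximum matching of a triangle-free graph. -/
theorem structure_max (hT : ∀ x y z, H.Adj x y → H.Adj y z → H.Adj x z → False)
    (M : Finset (V × V)) (hM : Mat H M) (hmax : ∀ M', Mat H M' → M'.card ≤ M.card) :
    ∃ X Y W : Finset V, Disjoint X Y ∧ X.card = M.card ∧ Y.card = M.card ∧
      Disjoint X W ∧ Disjoint Y W ∧ Fintype.card V ≤ 2 * M.card + W.card ∧
      (∀ w ∈ W, ∀ w' ∈ W, ¬ H.Adj w w') ∧ (∀ y ∈ Y, ∀ w ∈ W, ¬ H.Adj y w) := by
  classical
  set W := univ \ cov M with hW
  have hWm : ∀ w ∈ W, ∀ y ∈ M, w ≠ y.1 ∧ w ≠ y.2 := by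
    intro w hw y hy
    exact not_cov (Finset.mem_sdiff.1 hw).2 y hy
  have hWc : Fintype.card V ≤ 2 * M.card + W.card := by
    have h1 := Finset.card_sdiff_add_card (univ : Finset V) (cov M)
    rw [Finset.union_eq_left.2 (Finset.subset_univ _), Finset.card_univ, ← hW] at h1
    have h3 := cov_card M
    omega
  have hWind : ∀ w ∈ W, ∀ w' ∈ W, ¬ H.Adj w w' := by
    intro w hw w' hw' hadj
    have hnew : Mat H (Insert.insert (w, w') M) := by
      apply hM.insert DD_symm hadj
      intro y hy
      exact ⟨(hWm w hw y hy).1, (hWm w hw y hy).2, (hWm w' hw' y hy).1, (hWm w' hw' y hy).2⟩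
    have h1 := hmax _ hnew
    rw [Finset.card_insert_of_notMem] at h1
    · omega
    · intro h2
      exact (hWm w hw _ h2).1 rfl
  have hone : ∀ e ∈ M, ∀ w ∈ W, ∀ w' ∈ W, H.Adj e.1 w → H.Adj e.2 w' → False := by
    intro e he w hw w' hw' h1 h2
    have hadj := hM.1 e he
    by_cases hww : w = w'
    · subst hww
      exact hT e.1 e.2 w hadj h2 h1
    · have hM0 := hM.erase e
      have hM1 : Mat H (Insert.insert (e.2, w') (M.erase e)) := by
        apply hM0.insert DD_symm h2
        intro y hy
        have hyM := Finset.mem_of_mem_erase hy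
        have hR := hM.2 e he y hyM (Finset.ne_of_mem_erase hy).symm
        exact ⟨hR.2.2.1, hR.2.2.2, (hWm w' hw' y hyM).1, (hWm w' hw' y hyM).2⟩
      have hM2 : Mat H (Insert.insert (e.1, w) (Insert.insert (e.2, w') (M.erase e))) := by
        apply hM1.insert DD_symm h1
        intro y hy
        rcases Finset.mem_insert.1 hy with hy' | hy'
        · rw [hy']
          exact ⟨hadj.ne, (hWm w' hw' e he).1.symm, (hWm w hw e he).2, hww⟩
        · have hyM := Finset.mem_of_mem_erase hy'
          have hR := hM.2 e he y hyM (Finset.ne_of_mem_erase hy').symm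
          exact ⟨hR.1, hR.2.1, (hWm w hw y hyM).1, (hWm w hw y hyM).2⟩
      have h3 := hmax _ hM2
      rw [Finset.card_insert_of_notMem, Finset.card_insert_of_notMem,
        Finset.card_erase_of_mem he] at h3
      · have : 0 < M.card := Finset.card_pos.2 ⟨_, he⟩
        omega
      · intro h4
        exact (hWm w' hw' _ (Finset.mem_of_mem_erase h4)).2 rfl
      · intro h4
        rcases Finset.mem_insert.1 h4 with h5 | h5
        · exact hww (congrArg Prod.snd h5)
        · exact (hWm w hw _ (Finset.mem_of_mem_erase h5)).2 rfl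
  -- orientation
  set fx : V × V → V := fun e => if ∃ w ∈ W, H.Adj e.2 w then e.2 else e.1 with hfx
  set fy : V × V → V := fun e => if ∃ w ∈ W, H.Adj e.2 w then e.1 else e.2 with hfy
  have fxm : ∀ e, fx e = e.1 ∨ fx e = e.2 := by
    intro e
    simp only [hfx]
    split_ifs
    · exact Or.inr rfl
    · exact Or.inl rfl
  have fym : ∀ e, fy e = e.1 ∨ fy e = e.2 := by
    intro e
    simp only [hfy]
    split_ifs
    · exact Or.inl rfl
    · exact Or.inr rfl
  have fxy : ∀ e ∈ M, fx e ≠ fy e := by
    intro e he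
    have hne := (hM.1 e he).ne
    simp only [hfx, hfy]
    split_ifs
    · exact hne.symm
    · exact hne
  have far : ∀ e ∈ M, ∀ f ∈ M, e ≠ f → ∀ a b, (a = e.1 ∨ a = e.2) → (b = f.1 ∨ b = f.2) →
      a ≠ b := by
    intro e he f hf hef a b ha hb
    obtain ⟨r1, r2, r3, r4⟩ := hM.2 e he f hf hef
    rcases ha with rfl | rfl <;> rcases hb with rfl | rfl <;> assumption
  have injx : Set.InjOn fx (M : Set (V × V)) := by
    intro e he f hf hef
    by_contra hne
    exact far e (Finset.mem_coe.1 he) f (Finset.mem_coe.1 hf) hne _ _ (fxm e) (fxm f) hef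
  have injy : Set.InjOn fy (M : Set (V × V)) := by
    intro e he f hf hef
    by_contra hne
    exact far e (Finset.mem_coe.1 he) f (Finset.mem_coe.1 hf) hne _ _ (fym e) (fym f) hef
  refine ⟨M.image fx, M.image fy, W, ?_, Finset.card_image_of_injOn injx,
    Finset.card_image_of_injOn injy, ?_, ?_, hWc, hWind, ?_⟩
  · rw [Finset.disjoint_left]
    intro a ha hb
    obtain ⟨e, he, rfl⟩ := Finset.mem_image.1 ha
    obtain ⟨f, hf, hfe⟩ := Finset.mem_image.1 hb
    by_cases hef : e = f
    · subst hef
      exact fxy e he hfe.symm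
    · exact far e he f hf hef _ _ (fxm e) (fym f) hfe.symm
  · rw [Finset.disjoint_left]
    intro a ha hb
    obtain ⟨e, he, rfl⟩ := Finset.mem_image.1 ha
    rcases fxm e with h | h
    · exact (hWm _ hb e he).1 h
    · exact (hWm _ hb e he).2 h
  · rw [Finset.disjoint_left]
    intro a ha hb
    obtain ⟨e, he, rfl⟩ := Finset.mem_image.1 ha
    rcases fym e with h | h
    · exact (hWm _ hb e he).1 h
    · exact (hWm _ hb e he).2 h
  · intro y hy w hw hadj
    obtain ⟨e, he, rfl⟩ := Finset.mem_image.1 hy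
    by_cases hQ : ∃ w ∈ W, H.Adj e.2 w
    · have : fy e = e.1 := if_pos hQ
      rw [this] at hadj
      obtain ⟨w', hw', h2⟩ := hQ
      exact hone e he w hw w' hw' hadj h2
    · have : fy e = e.2 := if_neg hQ
      rw [this] at hadj
      exact hQ ⟨w, hw, hadj⟩

/-- a matching of the complement gives a colouring -/
theorem colorable_of_mat (G : SimpleGraph V) (M : Finset (V × V)) (hM : Mat Gᶜ M) :
    G.Colorable (Fintype.card V - M.card) := by
  classical
  have inj2 : Set.InjOn Prod.snd (M : Set (V × V)) := by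
    intro y hy z hz hyz
    by_contra hne
    exact (hM.2 y (Finset.mem_coe.1 hy) z (Finset.mem_coe.1 hz) hne).2.2.2 hyz
  -- representative of a vertex
  have hrep : ∀ x : V, ∃ r : V, r ∉ M.image Prod.snd ∧ (r = x ∨ ∃ e ∈ M, r = e.1 ∧ x = e.2) := by
    intro x
    by_cases hx : x ∈ M.image Prod.snd
    · obtain ⟨e, he, rfl⟩ := Finset.mem_image.1 hx
      refine ⟨e.1, ?_, Or.inr ⟨e, he, rfl, rfl⟩⟩
      intro h
      obtain ⟨f, hf, hfe⟩ := Finset.mem_image.1 h
      by_cases hef : e = f
      · subst hef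
        exact (hM.1 e he).ne hfe.symm
      · exact (hM.2 e he f hf hef).2.1 hfe.symm
    · exact ⟨x, hx, Or.inl rfl⟩
  choose r hr1 hr2 using hrep
  have hcol : G.Coloring {x : V // x ∉ M.image Prod.snd} := by
    refine SimpleGraph.Coloring.mk (fun x => ⟨r x, hr1 x⟩) ?_
    intro x y hxy h
    have h' : r x = r y := congrArg Subtype.val h
    have hadjG : ∀ e ∈ M, ¬ G.Adj e.1 e.2 := fun e he => ((SimpleGraph.compl_adj G _ _).1
      (hM.1 e he)).2
    rcases hr2 x with hx | ⟨e, he, hx1, hx2⟩ <;> rcases hr2 y with hy | ⟨f, hf, hy1, hy2⟩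
    · exact hxy.ne (hx.symm.trans (h'.trans hy))
    · apply hadjG f hf
      rw [← hy1, ← hy2, ← h', hx]
      exact hxy
    · apply hadjG e he
      rw [← hx1, ← hx2, h', hy]
      exact hxy.symm
    · by_cases hef : e = f
      · subst hef
        exact hxy.ne (hx2.trans hy2.symm)
      · exact (hM.2 e he f hf hef).1 (hx1.symm.trans (h'.trans hy1))
  have hc := hcol.colorable
  have hcard : Fintype.card {x : V // x ∉ M.image Prod.snd} = Fintype.card V - M.card := by
    rw [Fintype.card_subtype_compl]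
    congr 1
    rw [Fintype.card_coe, Finset.card_image_of_injOn inj2]
  rwa [hcard] at hc

/-- a colouring gives a matching of the complement if there is no independent triple -/
theorem mat_of_colorable (G : SimpleGraph V)
    (hα : ∀ s : Finset V, G.IsIndepSet s → s.card ≤ 2) (c : ℕ) (hc : G.Colorable c) :
    ∃ M : Finset (V × V), Mat Gᶜ M ∧ Fintype.card V ≤ c + M.card := by
  classical
  rcases isEmpty_or_nonempty V with hV | hV
  · refine ⟨∅, ⟨by simp, by simp⟩, ?_⟩
    rw [Fintype.card_eq_zero]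
    exact Nat.zero_le _
  obtain ⟨C⟩ := hc
  set F : Fin c → Finset V := fun i => univ.filter fun x => C x = i with hF
  have hF2 : ∀ i, (F i).card ≤ 2 := by
    intro i
    apply hα
    intro x hx y hy hxy hadj
    have h1 := (Finset.mem_filter.1 (Finset.mem_coe.1 hx)).2
    have h2 := (Finset.mem_filter.1 (Finset.mem_coe.1 hy)).2
    exact C.valid hadj (h1.trans h2.symm)
  set T := univ.filter fun i => (F i).card = 2 with hT
  have hex : ∀ i ∈ T, ∃ e : V × V, e.1 ≠ e.2 ∧ C e.1 = i ∧ C e.2 = i := by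
    intro i hi
    obtain ⟨x, y, hxy, hxy2⟩ := Finset.card_eq_two.1 (Finset.mem_filter.1 hi).2
    refine ⟨(x, y), hxy, ?_, ?_⟩
    · have : x ∈ F i := by rw [hxy2]; simp
      exact (Finset.mem_filter.1 this).2
    · have : y ∈ F i := by rw [hxy2]; simp
      exact (Finset.mem_filter.1 this).2
  choose! g hg1 hg2 hg3 using hex
  refine ⟨T.image g, ⟨?_, ?_⟩, ?_⟩
  · intro e he
    obtain ⟨i, hi, rfl⟩ := Finset.mem_image.1 he
    rw [SimpleGraph.compl_adj]
    exact ⟨hg1 i hi, fun h => C.valid h ((hg2 i hi).trans (hg3 i hi).symm)⟩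
  · intro e he f hf hef
    obtain ⟨i, hi, rfl⟩ := Finset.mem_image.1 he
    obtain ⟨j, hj, rfl⟩ := Finset.mem_image.1 hf
    have hij : i ≠ j := fun h => hef (by rw [h])
    refine ⟨fun h => hij ?_, fun h => hij ?_, fun h => hij ?_, fun h => hij ?_⟩
    · rw [← hg2 i hi, ← hg2 j hj, h]
    · rw [← hg2 i hi, ← hg3 j hj, h]
    · rw [← hg3 i hi, ← hg2 j hj, h]
    · rw [← hg3 i hi, ← hg3 j hj, h]
  · rw [Finset.card_image_of_injOn]
    · have h1 := Finset.card_eq_sum_card_fiberwise (f := C) (s := (univ : Finset V))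
        (t := (univ : Finset (Fin c))) (fun x _ => Finset.mem_coe.2 (mem_univ _))
      rw [Finset.card_univ] at h1
      rw [h1]
      calc ∑ i : Fin c, (univ.filter fun x => C x = i).card
          ≤ ∑ i : Fin c, (1 + if (F i).card = 2 then 1 else 0) := by
            refine Finset.sum_le_sum fun i _ => ?_
            have := hF2 i
            change (F i).card ≤ _
            split_ifs <;> omega
        _ = c + T.card := by
            rw [Finset.sum_add_distrib, Finset.sum_const, Finset.card_univ, Fintype.card_fin,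
              ← Finset.sum_filter, Finset.sum_const]
            simp [hT]
    · intro i hi j hj hij
      rw [← hg2 i (Finset.mem_coe.1 hi), ← hg2 j (Finset.mem_coe.1 hj)]
      exact congrArg (fun e : V × V => C e.1) hij

end Vale.Agent.P060
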