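import Vale.Agent.Lib.P060.Pairs

/-! # P060: bipartite version of the exchange argument -/

namespace Vale.Agent.P060

open Finset

variable {V : Type*} [Fintype V] [DecidableEq V] (H : SimpleGraph V) [DecidableRel H.Adj]

/-- good pairs between `X` and `Y` -/
def PB (K : ℕ) (X Y : Finset V) (x : V × V) : Prop :=
  PP H K ∅ x ∧ x.1 ∈ X ∧ x.2 ∈ Y

theorem exists_bip {Δ K : ℕ} (hΔ : ∀ x, H.degree x ≤ Δ) (hK : Δ < (K + 1) ^ 2)
    (X Y : Finset V) (hXY : Disjoint X Y) (n : ℕ) (hX : X.card = n) (hY : Y.card = n)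
    (hn : 3 * (2 + 3 * Δ + 2 * (Δ * K)) + 1 ≤ n) :
    ∃ M : Finset (V × V), Fam (PB H K X Y) (RR H) M ∧ M.card = n := by
  classical
  set β := 2 + 3 * Δ + 2 * (Δ * K) with hβ
  obtain ⟨M, hM, hmax⟩ := Finset.exists_max_image
    ((univ : Finset (Finset (V × V))).filter fun M => Fam (PB H K X Y) (RR H) M) Finset.card
    ⟨∅, by simp [Fam]⟩
  simp only [mem_filter, mem_univ, true_and] at hM hmax
  have hM' : Fam (PP H K ∅) (RR H) M := ⟨fun x hx => (hM.1 x hx).1, hM.2⟩
  have hbad : ∀ u, (Bad H K ∅ M u).card ≤ β := fun u =>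
    bad_card H hΔ hK ∅ (by simp) M hM' u
  have inj1 : Set.InjOn Prod.fst (M : Set (V × V)) := by
    intro y hy z hz hyz
    by_contra hne
    exact (hM.2 y (Finset.mem_coe.1 hy) z (Finset.mem_coe.1 hz) hne).1 hyz
  have inj2 : Set.InjOn Prod.snd (M : Set (V × V)) := by
    intro y hy z hz hyz
    by_contra hne
    exact (hM.2 y (Finset.mem_coe.1 hy) z (Finset.mem_coe.1 hz) hne).2.2.2.1 hyz
  have hsub1 : M.image Prod.fst ⊆ X := by
    intro x hx
    obtain ⟨e, he, rfl⟩ := Finset.mem_image.1 hx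
    exact (hM.1 e he).2.1
  have hsub2 : M.image Prod.snd ⊆ Y := by
    intro x hx
    obtain ⟨e, he, rfl⟩ := Finset.mem_image.1 hx
    exact (hM.1 e he).2.2
  have hc1 : (M.image Prod.fst).card = M.card := Finset.card_image_of_injOn inj1
  have hc2 : (M.image Prod.snd).card = M.card := Finset.card_image_of_injOn inj2
  have hle : M.card ≤ n := by
    rw [← hc1, ← hX]
    exact Finset.card_le_card hsub1
  refine ⟨M, hM, ?_⟩
  by_contra hcon
  have hlt : M.card < n := lt_of_le_of_ne hle hcon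
  have hUX : (X \ M.image Prod.fst).card = n - M.card := by
    rw [Finset.card_sdiff_of_subset hsub1, hX, hc1]
  have hUY : (Y \ M.image Prod.snd).card = n - M.card := by
    rw [Finset.card_sdiff_of_subset hsub2, hY, hc2]
  obtain ⟨u, hu⟩ := Finset.card_pos.1 (show 0 < (X \ M.image Prod.fst).card by omega)
  obtain ⟨v, hv⟩ := Finset.card_pos.1 (show 0 < (Y \ M.image Prod.snd).card by omega)
  obtain ⟨huX, hu'⟩ := Finset.mem_sdiff.1 hu
  have xy : ∀ x ∈ X, ∀ y ∈ Y, x ≠ y := fun x hx y hy h =>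
    Finset.disjoint_left.1 hXY hx (h ▸ hy)
  have hcovX : ∀ x ∈ X \ M.image Prod.fst, ∀ y ∈ M, x ≠ y.1 ∧ x ≠ y.2 := by
    intro x hx y hy
    obtain ⟨h1, h2⟩ := Finset.mem_sdiff.1 hx
    refine ⟨?_, xy x h1 _ (hM.1 y hy).2.2⟩
    rintro rfl
    exact h2 (Finset.mem_image_of_mem _ hy)
  have hcovY : ∀ x ∈ Y \ M.image Prod.snd, ∀ y ∈ M, x ≠ y.1 ∧ x ≠ y.2 := by
    intro x hx y hy
    obtain ⟨h1, h2⟩ := Finset.mem_sdiff.1 hx
    refine ⟨(xy _ (hM.1 y hy).2.1 x h1).symm, ?_⟩
    rintro rfl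
    exact h2 (Finset.mem_image_of_mem _ hy)
  have hvY := (Finset.mem_sdiff.1 hv).1
  by_cases hcase : M.card ≤ 2 * β
  · obtain ⟨a, ha, hab⟩ := Finset.exists_mem_notMem_of_card_lt_card
      (show (Bad H K ∅ M u).card < (Y \ M.image Prod.snd).card by
        have := hbad u
        omega)
    obtain ⟨g1, g2⟩ := good_of H (Finset.notMem_empty u) hab
    have hnew : Fam (PB H K X Y) (RR H) (Insert.insert (u, a) M) := by
      apply hM.insert (RR_symm H) ⟨g1, huX, (Finset.mem_sdiff.1 ha).1⟩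
      intro y hy
      exact ⟨(hcovX u hu y hy).1, (hcovX u hu y hy).2, (hcovY a ha y hy).1,
        (hcovY a ha y hy).2, g2 y hy⟩
    have h1 := hmax _ hnew
    rw [Finset.card_insert_of_notMem] at h1
    · omega
    · intro h2
      exact (hcovX u hu _ h2).1 rfl
  · push Not at hcase
    obtain ⟨e, he, he1, he2⟩ : ∃ e ∈ M, e.2 ∉ Bad H K ∅ M u ∧ e.1 ∉ Bad H K ∅ M v := by
      by_contra hno
      push Not at hno
      have h1 : M ⊆ (M.filter fun e => e.2 ∈ Bad H K ∅ M u) ∪
          (M.filter fun e => e.1 ∈ Bad H K ∅ M v) := by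
        intro e he
        by_cases h2 : e.2 ∈ Bad H K ∅ M u
        · exact Finset.mem_union_left _ (Finset.mem_filter.2 ⟨he, h2⟩)
        · exact Finset.mem_union_right _ (Finset.mem_filter.2 ⟨he, hno e he h2⟩)
      have h2 := Finset.card_le_card h1
      have h3 := Finset.card_union_le (M.filter fun e => e.2 ∈ Bad H K ∅ M u)
        (M.filter fun e => e.1 ∈ Bad H K ∅ M v)
      have h4 : (M.filter fun e => e.2 ∈ Bad H K ∅ M u).card ≤ β := by
        refine le_trans ?_ (hbad u)
        apply Finset.card_le_card_of_injOn Prod.snd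
        · intro y hy
          exact Finset.mem_coe.2 (Finset.mem_filter.1 hy).2
        · exact inj2.mono (by
            intro y hy
            exact Finset.mem_coe.2 (Finset.mem_filter.1 hy).1)
      have h5 : (M.filter fun e => e.1 ∈ Bad H K ∅ M v).card ≤ β := by
        refine le_trans ?_ (hbad v)
        apply Finset.card_le_card_of_injOn Prod.fst
        · intro y hy
          exact Finset.mem_coe.2 (Finset.mem_filter.1 hy).2
        · exact inj1.mono (by
            intro y hy
            exact Finset.mem_coe.2 (Finset.mem_filter.1 hy).1)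
      omega
    obtain ⟨a, b⟩ := e
    simp only at he1 he2
    obtain ⟨gu1, gu2⟩ := good_of H (Finset.notMem_empty u) he1
    obtain ⟨gv1, gv2⟩ := good_of H (Finset.notMem_empty v) he2
    have gv1' : PP H K ∅ (a, v) := by
      obtain ⟨p1, p2, p3, -, -, -⟩ := gv1
      refine ⟨p1.symm, fun h => p2 h.symm, ?_, by simp, by simp, by simp⟩
      unfold codeg at p3 ⊢
      rw [Finset.inter_comm]
      exact p3
    have hab := hM.1 (a, b) he
    have hua := hcovX u hu (a, b) he
    have hva := hcovY v hv (a, b) he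
    have hM0 := hM.erase (a, b)
    have hM1 : Fam (PB H K X Y) (RR H) (Insert.insert (a, v) (M.erase (a, b))) := by
      apply hM0.insert (RR_symm H) ⟨gv1', hab.2.1, hvY⟩
      intro y hy
      have hyM := Finset.mem_of_mem_erase hy
      have hR := hM.2 (a, b) he y hyM (Finset.ne_of_mem_erase hy).symm
      refine ⟨hR.1, hR.2.1, (hcovY v hv y hyM).1, (hcovY v hv y hyM).2, ?_⟩
      rintro ⟨q1, q2, q3, q4⟩
      exact gv2 y hyM ⟨q3, q4, q1, q2⟩
    have hM2 : Fam (PB H K X Y) (RR H)
        (Insert.insert (u, b) (Insert.insert (a, v) (M.erase (a, b)))) := by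
      apply hM1.insert (RR_symm H) ⟨gu1, huX, hab.2.2⟩
      intro y hy
      rcases Finset.mem_insert.1 hy with hy' | hy'
      · rw [hy']
        refine ⟨hua.1, xy u huX v hvY, hab.1.1.symm, hva.2.symm, ?_⟩
        rintro ⟨-, -, h3, -⟩
        exact hab.1.2.1 h3.symm
      · have hyM := Finset.mem_of_mem_erase hy'
        have hR := hM.2 (a, b) he y hyM (Finset.ne_of_mem_erase hy').symm
        exact ⟨(hcovX u hu y hyM).1, (hcovX u hu y hyM).2, hR.2.2.1, hR.2.2.2.1, gu2 y hyM⟩
    have h1 := hmax _ hM2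
    rw [Finset.card_insert_of_notMem, Finset.card_insert_of_notMem,
      Finset.card_erase_of_mem he] at h1
    · have : 0 < M.card := Finset.card_pos.2 ⟨_, he⟩
      omega
    · intro h2
      exact (hcovY v hv _ (Finset.mem_of_mem_erase h2)).2 rfl
    · intro h2
      rcases Finset.mem_insert.1 h2 with h3 | h3
      · exact hua.1 (congrArg Prod.fst h3)
      · exact (hcovX u hu _ (Finset.mem_of_mem_erase h3)).1 rfl

end Vale.Agent.P060
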