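import Mathlib

/-! # P060: conflict-free matchings by exchange -/

namespace Vale.Agent.P060

open Finset

section abstract

variable {α : Type*} [DecidableEq α] (P : α → Prop) (R : α → α → Prop)

/-- a family of good, pairwise compatible elements -/
def Fam (M : Finset α) : Prop := (∀ x ∈ M, P x) ∧ ∀ x ∈ M, ∀ y ∈ M, x ≠ y → R x y

variable {P R}

theorem Fam.insert (hR : ∀ x y, R x y → R y x) {M : Finset α} (h : Fam P R M) {z : α} (hz : P z)
    (hz2 : ∀ y ∈ M, R z y) : Fam P R (Insert.insert z M) := by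
  constructor
  · intro x hx
    rcases Finset.mem_insert.1 hx with rfl | hx
    · exact hz
    · exact h.1 x hx
  · intro x hx y hy hxy
    rcases Finset.mem_insert.1 hx with hx' | hx' <;>
      rcases Finset.mem_insert.1 hy with hy' | hy'
    · exact absurd (hx'.trans hy'.symm) hxy
    · rw [hx']
      exact hz2 y hy'
    · rw [hy']
      exact hR _ _ (hz2 x hx')
    · exact h.2 x hx' y hy' hxy

theorem Fam.erase {M : Finset α} (h : Fam P R M) (z : α) : Fam P R (M.erase z) :=
  ⟨fun x hx => h.1 x (Finset.mem_of_mem_erase hx), fun x hx y hy hxy =>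
    h.2 x (Finset.mem_of_mem_erase hx) y (Finset.mem_of_mem_erase hy) hxy⟩

end abstract

variable {V : Type*} [Fintype V] [DecidableEq V] (H : SimpleGraph V) [DecidableRel H.Adj]

/-- number of common neighbours -/
def codeg (x y : V) : ℕ := (H.neighborFinset x ∩ H.neighborFinset y).card

/-- good pairs -/
def PP (K : ℕ) (ro : Finset V) (x : V × V) : Prop :=
  x.1 ≠ x.2 ∧ ¬ H.Adj x.1 x.2 ∧ codeg H x.1 x.2 ≤ K ∧ x.1 ∉ ro ∧ x.2 ∉ ro ∧
    ∀ r ∈ ro, ¬ (H.Adj r x.1 ∧ H.Adj r x.2)

/-- compatible pairs -/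
def RR (x y : V × V) : Prop :=
  x.1 ≠ y.1 ∧ x.1 ≠ y.2 ∧ x.2 ≠ y.1 ∧ x.2 ≠ y.2 ∧
    ¬ (H.Adj x.1 y.1 ∧ H.Adj x.1 y.2 ∧ H.Adj x.2 y.1 ∧ H.Adj x.2 y.2)

omit [Fintype V] [DecidableEq V] [DecidableRel H.Adj] in
theorem RR_symm (x y : V × V) (h : RR H x y) : RR H y x := by
  obtain ⟨h1, h2, h3, h4, h5⟩ := h
  refine ⟨h1.symm, h3.symm, h2.symm, h4.symm, ?_⟩
  rintro ⟨a, b, c, d⟩
  exact h5 ⟨a.symm, c.symm, b.symm, d.symm⟩

/-- vertices that cannot be joined to `u` -/
def Bad (K : ℕ) (ro : Finset V) (M : Finset (V × V)) (u : V) : Finset V :=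
  {u} ∪ ro ∪ H.neighborFinset u ∪ (univ.filter fun a => K < codeg H u a) ∪
    (ro.biUnion fun r => H.neighborFinset r) ∪
    ((M.filter fun y => H.Adj u y.1 ∧ H.Adj u y.2).biUnion fun y =>
      H.neighborFinset y.1 ∩ H.neighborFinset y.2)

theorem bad_card {Δ K : ℕ} (hΔ : ∀ x, H.degree x ≤ Δ) (hK : Δ < (K + 1) ^ 2) (ro : Finset V)
    (hro : ro.card ≤ 1) (M : Finset (V × V)) (hM : Fam (PP H K ro) (RR H) M) (u : V) :
    (Bad H K ro M u).card ≤ 2 + 3 * Δ + 2 * (Δ * K) := by
  have hdeg : ∀ x, (H.neighborFinset x).card ≤ Δ := fun x => by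
    rw [SimpleGraph.card_neighborFinset_eq_degree]
    exact hΔ x
  have h1 : (univ.filter fun a => K < codeg H u a).card ≤ Δ * (K + 1) := by
    have h2 : ∑ a, codeg H u a ≤ Δ * Δ := by
      have h3 : ∀ a, codeg H u a = ∑ y ∈ H.neighborFinset u, if H.Adj y a then 1 else 0 := by
        intro a
        unfold codeg
        rw [← Finset.sum_filter, Finset.sum_const, smul_eq_mul, mul_one]
        congr 1
        ext y
        simp only [mem_inter, SimpleGraph.mem_neighborFinset, mem_filter]
        constructor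
        · rintro ⟨a1, a2⟩
          exact ⟨a1, a2.symm⟩
        · rintro ⟨a1, a2⟩
          exact ⟨a1, a2.symm⟩
      simp_rw [h3]
      rw [Finset.sum_comm]
      calc ∑ y ∈ H.neighborFinset u, ∑ a, (if H.Adj y a then 1 else 0)
          ≤ ∑ y ∈ H.neighborFinset u, Δ := by
            refine Finset.sum_le_sum fun y _ => ?_
            rw [← Finset.sum_filter, Finset.sum_const, smul_eq_mul, mul_one]
            have := hdeg y
            rwa [show (univ.filter fun a => H.Adj y a) = H.neighborFinset y by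
              ext a
              simp]
        _ = (H.neighborFinset u).card * Δ := by rw [Finset.sum_const, smul_eq_mul]
        _ ≤ Δ * Δ := Nat.mul_le_mul_right _ (hdeg u)
    have h4 : (univ.filter fun a => K < codeg H u a).card * (K + 1) ≤ Δ * Δ := by
      calc (univ.filter fun a => K < codeg H u a).card * (K + 1)
          = ∑ a ∈ univ.filter fun a => K < codeg H u a, (K + 1) := by
            rw [Finset.sum_const, smul_eq_mul]
        _ ≤ ∑ a ∈ univ.filter fun a => K < codeg H u a, codeg H u a :=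
            Finset.sum_le_sum fun a ha => (Finset.mem_filter.1 ha).2
        _ ≤ ∑ a, codeg H u a :=
            Finset.sum_le_sum_of_subset_of_nonneg (Finset.filter_subset _ _)
              fun _ _ _ => Nat.zero_le _
        _ ≤ Δ * Δ := h2
    have h5 : (univ.filter fun a => K < codeg H u a).card * (K + 1) ≤
        (Δ * (K + 1)) * (K + 1) := by
      calc _ ≤ Δ * Δ := h4
        _ ≤ Δ * (K + 1) ^ 2 := Nat.mul_le_mul_left _ hK.le
        _ = (Δ * (K + 1)) * (K + 1) := by ring
    exact Nat.le_of_mul_le_mul_right h5 (by omega)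
  have h6 : (ro.biUnion fun r => H.neighborFinset r).card ≤ Δ := by
    calc _ ≤ ∑ r ∈ ro, (H.neighborFinset r).card := Finset.card_biUnion_le
      _ ≤ ∑ r ∈ ro, Δ := Finset.sum_le_sum fun r _ => hdeg r
      _ = ro.card * Δ := by rw [Finset.sum_const, smul_eq_mul]
      _ ≤ 1 * Δ := Nat.mul_le_mul_right _ hro
      _ = Δ := one_mul _
  have h7 : ((M.filter fun y => H.Adj u y.1 ∧ H.Adj u y.2).biUnion fun y =>
      H.neighborFinset y.1 ∩ H.neighborFinset y.2).card ≤ Δ * K := by
    calc _ ≤ ∑ y ∈ M.filter fun y => H.Adj u y.1 ∧ H.Adj u y.2,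
          (H.neighborFinset y.1 ∩ H.neighborFinset y.2).card := Finset.card_biUnion_le
      _ ≤ ∑ y ∈ M.filter fun y => H.Adj u y.1 ∧ H.Adj u y.2, K := by
          refine Finset.sum_le_sum fun y hy => ?_
          exact (hM.1 y (Finset.mem_filter.1 hy).1).2.2.1
      _ = (M.filter fun y => H.Adj u y.1 ∧ H.Adj u y.2).card * K := by
          rw [Finset.sum_const, smul_eq_mul]
      _ ≤ Δ * K := by
          apply Nat.mul_le_mul_right
          refine le_trans ?_ (hdeg u)
          apply Finset.card_le_card_of_injOn Prod.fst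
          · intro y hy
            have := (Finset.mem_filter.1 hy).2.1
            simpa using this
          · intro y hy z hz hyz
            by_contra hne
            exact (hM.2 y (Finset.mem_filter.1 hy).1 z (Finset.mem_filter.1 hz).1 hne).1 hyz
  unfold Bad
  have c1 := Finset.card_union_le (({u} : Finset V) ∪ ro ∪ H.neighborFinset u ∪
    (univ.filter fun a => K < codeg H u a) ∪ (ro.biUnion fun r => H.neighborFinset r))
    ((M.filter fun y => H.Adj u y.1 ∧ H.Adj u y.2).biUnion fun y =>
      H.neighborFinset y.1 ∩ H.neighborFinset y.2)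
  have c2 := Finset.card_union_le (({u} : Finset V) ∪ ro ∪ H.neighborFinset u ∪
    (univ.filter fun a => K < codeg H u a)) (ro.biUnion fun r => H.neighborFinset r)
  have c3 := Finset.card_union_le (({u} : Finset V) ∪ ro ∪ H.neighborFinset u)
    (univ.filter fun a => K < codeg H u a)
  have c4 := Finset.card_union_le (({u} : Finset V) ∪ ro) (H.neighborFinset u)
  have c5 := Finset.card_union_le ({u} : Finset V) ro
  rw [Finset.card_singleton] at c5
  have := hdeg u
  have e : Δ * (K + 1) = Δ * K + Δ := by ring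
  omega

/-- what it means not to be bad -/
theorem good_of {K : ℕ} {ro : Finset V} {M : Finset (V × V)} {u a : V} (hu : u ∉ ro)
    (ha : a ∉ Bad H K ro M u) :
    PP H K ro (u, a) ∧ ∀ y ∈ M, ¬ (H.Adj u y.1 ∧ H.Adj u y.2 ∧ H.Adj a y.1 ∧ H.Adj a y.2) := by
  unfold Bad at ha
  simp only [mem_union, mem_singleton, mem_filter, mem_univ, true_and, mem_biUnion,
    SimpleGraph.mem_neighborFinset, mem_inter, not_or, not_exists, not_and, not_lt] at ha
  obtain ⟨⟨⟨⟨⟨a1, a2⟩, a3⟩, a4⟩, a5⟩, a6⟩ := ha
  refine ⟨⟨Ne.symm a1, a3, a4, hu, a2, ?_⟩, ?_⟩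
  · rintro r hr ⟨-, h2⟩
    exact a5 r hr h2
  · rintro y hy ⟨h1, h2, h3, h4⟩
    exact a6 y ⟨hy, h1, h2⟩ h3.symm h4.symm

/-- vertices covered by the pairs -/
def cov (M : Finset (V × V)) : Finset V := M.image Prod.fst ∪ M.image Prod.snd

omit [Fintype V] in
theorem cov_card (M : Finset (V × V)) : (cov M).card ≤ 2 * M.card := by
  unfold cov
  have h1 := Finset.card_union_le (M.image Prod.fst) (M.image Prod.snd)
  have h2 := Finset.card_image_le (s := M) (f := Prod.fst)
  have h3 := Finset.card_image_le (s := M) (f := Prod.snd)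
  omega

omit [Fintype V] in
theorem not_cov {M : Finset (V × V)} {u : V} (h : u ∉ cov M) (y : V × V) (hy : y ∈ M) :
    u ≠ y.1 ∧ u ≠ y.2 := by
  unfold cov at h
  constructor
  · rintro rfl
    exact h (Finset.mem_union_left _ (Finset.mem_image_of_mem _ hy))
  · rintro rfl
    exact h (Finset.mem_union_right _ (Finset.mem_image_of_mem _ hy))

theorem exists_matching {Δ K : ℕ} (hΔ : ∀ x, H.degree x ≤ Δ) (hK : Δ < (K + 1) ^ 2)
    (ro : Finset V) (hro : ro.card ≤ 1)
    (hm : 5 * (2 + 3 * Δ + 2 * (Δ * K)) + 2 ≤ Fintype.card V) :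
    ∃ M : Finset (V × V), Fam (PP H K ro) (RR H) M ∧
      Fintype.card V ≤ 2 * M.card + ro.card + 1 := by
  classical
  set β := 2 + 3 * Δ + 2 * (Δ * K) with hβ
  obtain ⟨M, hM, hmax⟩ := Finset.exists_max_image
    ((univ : Finset (Finset (V × V))).filter fun M => Fam (PP H K ro) (RR H) M) Finset.card
    ⟨∅, by simp [Fam]⟩
  simp only [mem_filter, mem_univ, true_and] at hM hmax
  refine ⟨M, hM, ?_⟩
  by_contra hcon
  push Not at hcon
  have hbad : ∀ u, (Bad H K ro M u).card ≤ β := fun u => bad_card H hΔ hK ro hro M hM u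
  set U := univ \ (cov M ∪ ro) with hU
  have hUcard : Fintype.card V ≤ U.card + (2 * M.card + ro.card) := by
    have h1 := Finset.card_sdiff_add_card (univ : Finset V) (cov M ∪ ro)
    rw [Finset.union_eq_left.2 (Finset.subset_univ _), Finset.card_univ] at h1
    rw [← hU] at h1
    have h2 := Finset.card_union_le (cov M) ro
    have h3 := cov_card M
    omega
  have hUmem : ∀ x, x ∈ U → x ∉ cov M ∧ x ∉ ro := by
    intro x hx
    rw [hU, Finset.mem_sdiff, Finset.mem_union, not_or] at hx
    exact hx.2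
  obtain ⟨u, hu, v, hv, huv⟩ := Finset.one_lt_card.1 (show 1 < U.card by omega)
  obtain ⟨hu1, hu2⟩ := hUmem u hu
  obtain ⟨hv1, hv2⟩ := hUmem v hv
  by_cases hcase : M.card ≤ 2 * β
  · -- add a pair inside U
    obtain ⟨a, ha, hab⟩ := Finset.exists_mem_notMem_of_card_lt_card
      (show (Bad H K ro M u).card < U.card by
        have := hbad u
        omega)
    obtain ⟨ha1, ha2⟩ := hUmem a ha
    obtain ⟨g1, g2⟩ := good_of H hu2 hab
    have hnew : Fam (PP H K ro) (RR H) (Insert.insert (u, a) M) := by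
      apply hM.insert (RR_symm H) g1
      intro y hy
      exact ⟨(not_cov hu1 y hy).1, (not_cov hu1 y hy).2, (not_cov ha1 y hy).1,
        (not_cov ha1 y hy).2, g2 y hy⟩
    have h1 := hmax _ hnew
    rw [Finset.card_insert_of_notMem] at h1
    · omega
    · intro h2
      exact (not_cov hu1 _ h2).1 rfl
  · -- exchange
    push Not at hcase
    obtain ⟨e, he, he1, he2⟩ : ∃ e ∈ M, e.1 ∉ Bad H K ro M u ∧ e.2 ∉ Bad H K ro M v := by
      by_contra hno
      push Not at hno
      have h1 : M ⊆ (M.filter fun e => e.1 ∈ Bad H K ro M u) ∪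
          (M.filter fun e => e.2 ∈ Bad H K ro M v) := by
        intro e he
        by_cases h2 : e.1 ∈ Bad H K ro M u
        · exact Finset.mem_union_left _ (Finset.mem_filter.2 ⟨he, h2⟩)
        · exact Finset.mem_union_right _ (Finset.mem_filter.2 ⟨he, hno e he h2⟩)
      have h2 := Finset.card_le_card h1
      have h3 := Finset.card_union_le (M.filter fun e => e.1 ∈ Bad H K ro M u)
        (M.filter fun e => e.2 ∈ Bad H K ro M v)
      have h4 : (M.filter fun e => e.1 ∈ Bad H K ro M u).card ≤ β := by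
        refine le_trans ?_ (hbad u)
        apply Finset.card_le_card_of_injOn Prod.fst
        · intro y hy
          exact Finset.mem_coe.2 (Finset.mem_filter.1 hy).2
        · intro y hy z hz hyz
          by_contra hne
          exact (hM.2 y (Finset.mem_filter.1 hy).1 z (Finset.mem_filter.1 hz).1 hne).1 hyz
      have h5 : (M.filter fun e => e.2 ∈ Bad H K ro M v).card ≤ β := by
        refine le_trans ?_ (hbad v)
        apply Finset.card_le_card_of_injOn Prod.snd
        · intro y hy
          exact Finset.mem_coe.2 (Finset.mem_filter.1 hy).2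
        · intro y hy z hz hyz
          by_contra hne
          exact (hM.2 y (Finset.mem_filter.1 hy).1 z (Finset.mem_filter.1 hz).1 hne).2.2.2.1 hyz
      omega
    obtain ⟨a, b⟩ := e
    simp only at he1 he2
    obtain ⟨gu1, gu2⟩ := good_of H hu2 he1
    obtain ⟨gv1, gv2⟩ := good_of H hv2 he2
    have hab := hM.1 (a, b) he
    have hua := not_cov hu1 (a, b) he
    have hva := not_cov hv1 (a, b) he
    have hM0 := hM.erase (a, b)
    have hM1 : Fam (PP H K ro) (RR H) (Insert.insert (v, b) (M.erase (a, b))) := by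
      apply hM0.insert (RR_symm H) gv1
      intro y hy
      have hyM := Finset.mem_of_mem_erase hy
      have hR := hM.2 (a, b) he y hyM (Finset.ne_of_mem_erase hy).symm
      exact ⟨(not_cov hv1 y hyM).1, (not_cov hv1 y hyM).2, hR.2.2.1, hR.2.2.2.1, gv2 y hyM⟩
    have hM2 : Fam (PP H K ro) (RR H)
        (Insert.insert (u, a) (Insert.insert (v, b) (M.erase (a, b)))) := by
      apply hM1.insert (RR_symm H) gu1
      intro y hy
      rcases Finset.mem_insert.1 hy with hy' | hy'
      · rw [hy']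
        refine ⟨huv, hua.2, hva.1.symm, hab.1, ?_⟩
        rintro ⟨-, -, -, h4⟩
        exact hab.2.1 h4
      · have hyM := Finset.mem_of_mem_erase hy'
        have hR := hM.2 (a, b) he y hyM (Finset.ne_of_mem_erase hy').symm
        exact ⟨(not_cov hu1 y hyM).1, (not_cov hu1 y hyM).2, hR.1, hR.2.1, gu2 y hyM⟩
    have h1 := hmax _ hM2
    rw [Finset.card_insert_of_notMem, Finset.card_insert_of_notMem,
      Finset.card_erase_of_mem he] at h1
    · have : 0 < M.card := Finset.card_pos.2 ⟨_, he⟩
      omega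
    · intro h2
      exact (not_cov hv1 _ (Finset.mem_of_mem_erase h2)).1 rfl
    · intro h2
      rcases Finset.mem_insert.1 h2 with h3 | h3
      · exact huv (congrArg Prod.fst h3)
      · exact (not_cov hu1 _ (Finset.mem_of_mem_erase h3)).1 rfl

end Vale.Agent.P060
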